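import Crest.Agent.H0077.Bonami

/-! The block inequality for vertex-symmetric functions. -/

set_option autoImplicit false
set_option linter.unusedSectionVars false

namespace Crest.Agent.H0077
open Finset Crest.FinProb

variable {ι : Type*} [Fintype ι] [DecidableEq ι] {p : ℝ}
variable {α : Type*} [Fintype α] [DecidableEq α]

lemma sum_ite_unique {β : Type*} (s : Finset β) (P : β → Prop) [DecidablePred P] (x : ℝ)
    (hx : 0 ≤ x) (h : ∀ a ∈ s, ∀ b ∈ s, P a → P b → a = b) :
    ∑ a ∈ s, (if P a then x else 0) ≤ x := by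
  rw [← sum_filter, sum_const, nsmul_eq_mul]
  have : (s.filter P).card ≤ 1 := card_le_one.2 fun a ha b hb =>
    h a (mem_filter.1 ha).1 b (mem_filter.1 hb).1 (mem_filter.1 ha).2 (mem_filter.1 hb).2
  have : ((s.filter P).card : ℝ) ≤ 1 := by exact_mod_cast this
  nlinarith

def Jb (V : ι → Finset α) (B : Finset α) (u : α) : Finset ι := univ.filter fun e => V e ∩ B = {u}

def Ab (V : ι → Finset α) (B : Finset α) : Finset ι := univ.filter fun e => (V e ∩ B).Nonempty

lemma map_swap_self {B : Finset α} {u u' : α} (hu : u ∈ B) (hu' : u' ∈ B) :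
    B.map (Equiv.swap u u').toEmbedding = B := by
  ext x
  rw [mem_map_equiv, Equiv.symm_swap]
  by_cases h1 : x = u
  · subst h1; simp [hu, hu']
  · by_cases h2 : x = u'
    · subst h2; simp [hu, hu']
    · rw [Equiv.swap_apply_of_ne_of_ne h1 h2]

lemma map_swap_inter {B : Finset α} {u u' : α} (hu : u ∈ B) (hu' : u' ∈ B) (s : Finset α) :
    s.map (Equiv.swap u u').toEmbedding ∩ B = (s ∩ B).map (Equiv.swap u u').toEmbedding := by
  rw [map_inter, map_swap_self hu hu']

lemma blockN (h0 : 0 < p) (h1 : p < 1) (V : ι → Finset α) (τ : Equiv.Perm α → Equiv.Perm ι)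
    (hτ : ∀ σ e, V (τ σ e) = (V e).map σ.toEmbedding) (B : Finset α) (G : (ι → Bool) → ℝ)
    (hG : ∀ u ∈ B, ∀ u' ∈ B, ∀ ω, G (ω ∘ τ (Equiv.swap u u')) = G ω)
    (hG2 : Ex p (fun ω => G ω ^ 2) ≤ 1) {u : α} (hu : u ∈ B) :
    (B.card : ℝ) * ∑ T : Finset ι, (if T.Nonempty ∧ T ⊆ Jb V B u then co p G T ^ 2 else 0) ≤ 1 := by
  set N : α → ℝ := fun u => ∑ T : Finset ι,
    (if T.Nonempty ∧ T ⊆ Jb V B u then co p G T ^ 2 else 0) with hN
  have hsym : ∀ u' ∈ B, N u' = N u := by
    intro u' hu'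
    simp only [hN]
    symm
    refine Fintype.sum_equiv (τ (Equiv.swap u u')).finsetCongr _ _ fun T => ?_
    rw [Equiv.finsetCongr_apply, co_map _ G (hG u hu u' hu')]
    have hJ : ∀ e, τ (Equiv.swap u u') e ∈ Jb V B u' ↔ e ∈ Jb V B u := by
      intro e
      simp only [Jb, mem_filter, mem_univ, true_and]
      rw [hτ, map_swap_inter hu hu']
      have : ({u'} : Finset α) = ({u} : Finset α).map (Equiv.swap u u').toEmbedding := by simp
      rw [this, map_inj]
    have : T.map (τ (Equiv.swap u u')).toEmbedding ⊆ Jb V B u' ↔ T ⊆ Jb V B u := by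
      constructor
      · intro h e he
        exact (hJ e).1 (h (mem_map_of_mem _ he))
      · intro h e he
        obtain ⟨e', he', rfl⟩ := mem_map.1 he
        exact (hJ e').2 (h he')
    simp only [map_nonempty, this]
  have hsum : ∑ u' ∈ B, N u' ≤ 1 := by
    simp only [hN]
    rw [sum_comm]
    refine le_trans (sum_le_sum fun T _ => ?_) ((parseval h0 h1 G).symm.le.trans hG2)
    refine sum_ite_unique _ _ _ (sq_nonneg _) fun a _ b _ ha hb => ?_
    obtain ⟨e, he⟩ := ha.1
    have h2 := (mem_filter.1 (ha.2 he)).2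
    have h3 := (mem_filter.1 (hb.2 he)).2
    exact singleton_injective (h2.symm.trans h3)
  rw [sum_congr rfl hsym, sum_const, nsmul_eq_mul] at hsum
  exact hsum

lemma block (h0 : 0 < p) (h1 : p < 1) (V : ι → Finset α) (hV : Function.Injective V)
    (τ : Equiv.Perm α → Equiv.Perm ι)
    (hτ : ∀ σ e, V (τ σ e) = (V e).map σ.toEmbedding) (f : (ι → Bool) → ℝ)
    (hf : ∀ σ ω, f (ω ∘ τ σ) = f ω) (hf1 : ∀ ω, f ω ^ 2 ≤ 1) (B : Finset α) {u : α} (hu : u ∈ B)
    (D : ℕ) (s : ℝ) (hs : 0 ≤ s) (hsB : 1 ≤ (B.card : ℝ) * s ^ 2) :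
    ∑ S : Finset ι, (if (S ∩ Ab V B).Nonempty ∧ S ∩ Ab V B ⊆ Jb V B u ∧ (S ∩ Ab V B).card ≤ D
      then co p f S ^ 2 else 0) ≤
      (2 / sg p) ^ D * s * ∑ e ∈ Jb V B u, Ex p (fun ω => |Lp p e f ω|) := by
  set A := Ab V B with hA
  set J := Jb V B u with hJ
  have hJA : J ⊆ A := by
    intro e he
    have := (mem_filter.1 he).2
    exact mem_filter.2 ⟨mem_univ _, by rw [this]; exact singleton_nonempty _⟩
  have e1 : ∑ S : Finset ι, (if (S ∩ A).Nonempty ∧ S ∩ A ⊆ J ∧ (S ∩ A).card ≤ D
      then co p f S ^ 2 else 0) = Ex p (fun ω => ∑ T : Finset ι,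
        (if T.Nonempty ∧ T ⊆ J ∧ T.card ≤ D then 1 else 0) *
          co p (fun ω' => f (A.piecewise ω' ω)) T ^ 2) := by
    rw [Ex_sum]
    simp only [Ex_mul, Ex_co_restrict h0 h1, mul_sum]
    rw [sum_comm]
    refine sum_congr rfl fun S _ => ?_
    simp only [mul_ite, mul_zero, sum_ite_eq, mem_univ, if_true, ite_mul, one_mul, zero_mul]
  have e2 : ∀ ω, ∑ T : Finset ι, (if T.Nonempty ∧ T ⊆ J ∧ T.card ≤ D then 1 else 0) *
          co p (fun ω' => f (A.piecewise ω' ω)) T ^ 2 ≤
      ∑ e ∈ J, (2 / sg p) ^ D * s * Ex p (fun ω' => |Lp p e f (A.piecewise ω' ω)|) := by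
    intro ω
    set G : (ι → Bool) → ℝ := fun ω' => f (A.piecewise ω' ω) with hG
    have hGs : ∀ a ∈ B, ∀ b ∈ B, ∀ ω', G (ω' ∘ τ (Equiv.swap a b)) = G ω' := by
      intro a ha b hb ω'
      simp only [hG]
      rw [← hf (Equiv.swap a b) (A.piecewise ω' ω)]
      congr 1
      funext e
      have hmem : τ (Equiv.swap a b) e ∈ A ↔ e ∈ A := by
        simp only [hA, Ab, mem_filter, mem_univ, true_and]
        rw [hτ, map_swap_inter ha hb, map_nonempty]
      by_cases he : e ∈ A
      · rw [piecewise_eq_of_mem _ _ _ he, Function.comp_apply, Function.comp_apply,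
          piecewise_eq_of_mem _ _ _ (hmem.2 he)]
      · have hfix : τ (Equiv.swap a b) e = e := by
          apply hV
          rw [hτ]
          have hne : ∀ x ∈ B, x ∉ V e := fun x hx hx' =>
            he (mem_filter.2 ⟨mem_univ _, ⟨x, mem_inter.2 ⟨hx', hx⟩⟩⟩)
          ext x
          rw [mem_map_equiv, Equiv.symm_swap]
          by_cases h2 : x = a
          · subst h2; simp [hne _ ha, hne _ hb]
          · by_cases h3 : x = b
            · subst h3; simp [hne _ ha, hne _ hb]
            · rw [Equiv.swap_apply_of_ne_of_ne h2 h3]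
        rw [Function.comp_apply, hfix, piecewise_eq_of_notMem _ _ _ he,
          piecewise_eq_of_notMem _ _ _ he]
    have hG2 : Ex p (fun ω' => G ω' ^ 2) ≤ 1 :=
      (Ex_mono h0.le h1.le fun ω' => hf1 _).trans (Ex_const 1).le
    have hN := blockN h0 h1 V τ hτ B G hGs hG2 hu
    have hBpos : (0 : ℝ) < B.card := by exact_mod_cast card_pos.2 ⟨u, hu⟩
    have hN' : ∑ T : Finset ι, (if T.Nonempty ∧ T ⊆ J then co p G T ^ 2 else 0) ≤ s ^ 2 :=
      le_of_mul_le_mul_left (hN.trans hsB) hBpos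
    calc _ ≤ ∑ T : Finset ι, ∑ e ∈ J,
          (if e ∈ T ∧ T ⊆ J ∧ T.card ≤ D then co p G T ^ 2 else 0) := by
          refine sum_le_sum fun T _ => ?_
          split_ifs with h
          · obtain ⟨e, he⟩ := h.1
            refine le_trans ?_ (single_le_sum (f := fun e =>
              if e ∈ T ∧ T ⊆ J ∧ T.card ≤ D then co p G T ^ 2 else 0)
              (fun _ _ => by split_ifs <;> positivity) (h.2.1 he))
            rw [if_pos ⟨he, h.2⟩, one_mul]
          · rw [zero_mul]; exact sum_nonneg fun _ _ => by split_ifs <;> positivity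
      _ ≤ _ := by
          rw [sum_comm]
          refine sum_le_sum fun e he => ?_
          have := level h0 h1 G J e D s hs (le_trans (sum_le_sum fun T _ => ?_) hN')
          · simp only [hG, Lp_restrict f A (hJA he)] at this
            exact this
          · by_cases h : e ∈ T ∧ T ⊆ J
            · rw [if_pos h, if_pos ⟨⟨e, h.1⟩, h.2⟩]
            · rw [if_neg h]; split_ifs <;> positivity
  rw [e1]
  refine (Ex_mono h0.le h1.le e2).trans (le_of_eq ?_)
  rw [Ex_sum, mul_sum]
  refine sum_congr rfl fun e _ => ?_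
  rw [Ex_mul, Ex_comm, Ex_Ex_piecewise h0 h1 A (fun ω => |Lp p e f ω|)]

lemma choose_half (N k : ℕ) : ∀ j : ℕ, 2 * j ≤ N →
    ((N : ℝ) - 2 * j * k) * N.choose k ≤ N * (N - j).choose k := by
  intro j
  induction j with
  | zero => intro _; simp
  | succ j ih =>
    intro hj
    have ih := ih (by omega)
    obtain ⟨M, hM⟩ : ∃ M, N - j = M + 1 := ⟨N - j - 1, by omega⟩
    have hM' : N - (j + 1) = M := by omega
    rw [hM] at ih
    rw [hM']
    have h1 := Nat.choose_mul_succ_eq M k
    have h2 : ((M + 1).choose k : ℝ) * ((M : ℝ) + 1 - k) ≤ M.choose k * ((M : ℝ) + 1) := by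
      have h3 : ((M.choose k * (M + 1) : ℕ) : ℝ) = (((M + 1).choose k * (M + 1 - k) : ℕ) : ℝ) := by
        rw [h1]
      push_cast at h3
      rw [h3]
      refine mul_le_mul_of_nonneg_left ?_ (by positivity)
      rcases le_total k (M + 1) with h | h
      · rw [Nat.cast_sub h]; push_cast; rfl
      · have : ((M : ℝ) + 1) ≤ k := by exact_mod_cast h
        have h5 : (0 : ℝ) ≤ ((M + 1 - k : ℕ) : ℝ) := by positivity
        linarith
    have h4 : ((M + 1).choose k : ℝ) ≤ N.choose k := by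
      exact_mod_cast Nat.choose_le_choose k (by omega)
    have h5 : (N : ℝ) ≤ 2 * ((M : ℝ) + 1) := by
      have : N ≤ 2 * (M + 1) := by omega
      exact_mod_cast this
    have hM0 : (0 : ℝ) < (M : ℝ) + 1 := by positivity
    have hc0 : (0 : ℝ) ≤ (M + 1).choose k := by positivity
    have hk0 : (0 : ℝ) ≤ k := by positivity
    have hN0 : (0 : ℝ) ≤ N := by positivity
    have h6 : (N : ℝ) * (M + 1).choose k - 2 * k * (M + 1).choose k ≤ N * M.choose k := by
      refine le_of_mul_le_mul_right ?_ hM0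
      have a1 := mul_le_mul_of_nonneg_left h2 hN0
      have a2 := mul_le_mul_of_nonneg_left h5 (mul_nonneg hk0 hc0)
      nlinarith
    push_cast
    nlinarith [mul_le_mul_of_nonneg_left h4 hk0]

/-- Fourier mass of small sets having a low-degree vertex. -/
theorem low_mass (h0 : 0 < p) (h1 : p < 1) (V : ι → Finset α) (hV : Function.Injective V)
    (r : ℕ) (hr : ∀ e, (V e).card = r) (τ : Equiv.Perm α → Equiv.Perm ι)
    (hτ : ∀ σ e, V (τ σ e) = (V e).map σ.toEmbedding) (f : (ι → Bool) → ℝ)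
    (hf : ∀ σ ω, f (ω ∘ τ σ) = f ω) (hf1 : ∀ ω, f ω ^ 2 ≤ 1)
    (D k v : ℕ) (s : ℝ) (hs : 0 ≤ s) (hsk : 1 ≤ ((k : ℝ) + 1) * s ^ 2)
    (hv : 2 * v ≤ Fintype.card α) (hvk : 4 * v * k ≤ Fintype.card α) (hk : k ≤ Fintype.card α)
    (hn : 0 < Fintype.card α)
    (P : Finset ι → Prop) [DecidablePred P]
    (hP : ∀ S, P S → (S.biUnion V).card ≤ v ∧
      ∃ u ∈ S.biUnion V, (S.filter fun e => u ∈ V e).card ≤ D) :
    ∑ S : Finset ι, (if P S then co p f S ^ 2 else 0) ≤
      2 * r * ((2 / sg p) ^ D * s) * ∑ e, Ex p (fun ω => |Lp p e f ω|) := by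
  set n := Fintype.card α with hn'
  set x : ι → ℝ := fun e => Ex p (fun ω => |Lp p e f ω|) with hx
  have hx0 : ∀ e, 0 ≤ x e := fun e => Ex_nonneg h0.le h1.le fun _ => abs_nonneg _
  set c := (2 / sg p) ^ D * s with hc
  have hc0 : 0 ≤ c := mul_nonneg (pow_nonneg (by linarith [K_ge h0 h1]) _) hs
  set Bs := powersetCard (k + 1) (univ : Finset α) with hBs
  set Q : Finset α → α → Finset ι → Prop := fun B u S =>
    (S ∩ Ab V B).Nonempty ∧ S ∩ Ab V B ⊆ Jb V B u ∧ (S ∩ Ab V B).card ≤ D with hQ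
  have hC : (0 : ℝ) < n.choose k := by exact_mod_cast Nat.choose_pos hk
  have hhalf : (n.choose k : ℝ) ≤ 2 * (n - v).choose k := by
    have := choose_half n k v hv
    have h2 : (4 * v * k : ℝ) ≤ n := by exact_mod_cast hvk
    have h3 : (0 : ℝ) < n := by exact_mod_cast hn
    refine le_of_mul_le_mul_left ?_ h3
    nlinarith
  -- lower bound
  have low : ∀ S : Finset ι, (if P S then co p f S ^ 2 else 0) * (n.choose k : ℝ) ≤
      2 * ∑ B ∈ Bs, ∑ u ∈ B, (if Q B u S then co p f S ^ 2 else 0) := by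
    intro S
    have hnn : ∀ B u, 0 ≤ (if Q B u S then co p f S ^ 2 else 0) := fun _ _ => by
      split_ifs <;> positivity
    split_ifs with hS
    swap
    · rw [zero_mul]; exact mul_nonneg (by norm_num) (sum_nonneg fun _ _ => sum_nonneg fun _ _ =>
        hnn _ _)
    obtain ⟨hvS, u, hu, hdeg⟩ := hP S hS
    set W := S.biUnion V with hW
    have hinj : Set.InjOn (fun B' : Finset α => insert u B') (powersetCard k Wᶜ : Finset _) := by
      intro B1 hB1 B2 hB2 h
      have n1 : u ∉ B1 := fun h' => (mem_compl.1 ((mem_powersetCard.1 hB1).1 h')) hu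
      have n2 : u ∉ B2 := fun h' => (mem_compl.1 ((mem_powersetCard.1 hB2).1 h')) hu
      simp only at h
      rw [← erase_insert n1, ← erase_insert n2, h]
    have hsub : (powersetCard k Wᶜ).image (fun B' => insert u B') ⊆ Bs := by
      intro B hB
      obtain ⟨B', hB', rfl⟩ := mem_image.1 hB
      have n1 : u ∉ B' := fun h' => (mem_compl.1 ((mem_powersetCard.1 hB').1 h')) hu
      exact mem_powersetCard.2 ⟨subset_univ _, by
        rw [card_insert_of_notMem n1, (mem_powersetCard.1 hB').2]⟩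
    have h2 : ∑ B ∈ (powersetCard k Wᶜ).image (fun B' => insert u B'), co p f S ^ 2 ≤
        ∑ B ∈ Bs, ∑ u ∈ B, (if Q B u S then co p f S ^ 2 else 0) := by
      refine le_trans (sum_le_sum fun B hB => ?_) (sum_le_sum_of_subset_of_nonneg hsub
        fun _ _ _ => sum_nonneg fun _ _ => hnn _ _)
      obtain ⟨B', hB', rfl⟩ := mem_image.1 hB
      refine le_trans ?_ (single_le_sum (f := fun u' => if Q (insert u B') u' S then co p f S ^ 2
        else 0) (fun _ _ => hnn _ _) (mem_insert_self u B'))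
      have hkey : ∀ e ∈ S, ∀ y ∈ V e ∩ insert u B', y = u := by
        intro e he y hy
        rcases mem_insert.1 (mem_inter.1 hy).2 with h | h
        · exact h
        · exact absurd (mem_biUnion.2 ⟨e, he, (mem_inter.1 hy).1⟩)
            (mem_compl.1 ((mem_powersetCard.1 hB').1 h))
      have hSA : S ∩ Ab V (insert u B') = S.filter fun e => u ∈ V e := by
        ext e
        simp only [Ab, mem_inter, mem_filter, mem_univ, true_and]
        refine and_congr_right fun he => ⟨fun ⟨y, hy⟩ => ?_, fun h => ⟨u, ?_⟩⟩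
        · have := hkey e he y hy
          exact this ▸ (mem_inter.1 hy).1
        · exact mem_inter.2 ⟨h, mem_insert_self _ _⟩
      have : Q (insert u B') u S := by
        simp only [hQ, hSA]
        refine ⟨?_, fun e he => ?_, hdeg⟩
        · obtain ⟨e, he, hue⟩ := mem_biUnion.1 hu
          exact ⟨e, mem_filter.2 ⟨he, hue⟩⟩
        · refine mem_filter.2 ⟨mem_univ _, eq_singleton_iff_unique_mem.2 ⟨?_, ?_⟩⟩
          · exact mem_inter.2 ⟨(mem_filter.1 he).2, mem_insert_self _ _⟩
          · exact hkey e (mem_filter.1 he).1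
      rw [if_pos this]
    rw [sum_const, card_image_of_injOn hinj, card_powersetCard, card_compl, nsmul_eq_mul] at h2
    have h3 : ((n - v).choose k : ℝ) ≤ (n - W.card).choose k := by
      exact_mod_cast Nat.choose_le_choose k (by omega)
    have h4 := sq_nonneg (co p f S)
    nlinarith [mul_le_mul_of_nonneg_left (hhalf.trans (mul_le_mul_of_nonneg_left h3
      (by norm_num))) h4]
  -- upper bound
  have up : ∑ B ∈ Bs, ∑ u ∈ B, ∑ e ∈ Jb V B u, x e ≤ r * n.choose k * ∑ e, x e := by
    have a1 : ∀ B ∈ Bs, ∑ u ∈ B, ∑ e ∈ Jb V B u, x e ≤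
        ∑ e, ∑ u ∈ V e, (if u ∈ B then x e else 0) := by
      intro B _
      simp only [Jb, sum_filter]
      rw [sum_comm]
      refine sum_le_sum fun e _ => ?_
      rw [← sum_filter, ← sum_filter]
      refine sum_le_sum_of_subset_of_nonneg (fun u hu => ?_) fun _ _ _ => hx0 e
      have h := (mem_filter.1 hu).2
      have : u ∈ V e ∩ B := by rw [h]; exact mem_singleton_self u
      exact mem_filter.2 (mem_inter.1 this)
    refine (sum_le_sum a1).trans ?_
    rw [sum_comm, mul_sum]
    refine sum_le_sum fun e _ => ?_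
    rw [sum_comm]
    have a2 : ∀ u ∈ V e, ∑ B ∈ Bs, (if u ∈ B then x e else 0) ≤ n.choose k * x e := by
      intro u _
      rw [← sum_filter, sum_const, nsmul_eq_mul]
      refine mul_le_mul_of_nonneg_right ?_ (hx0 e)
      have : (Bs.filter fun B => u ∈ B).card ≤ (powersetCard k (univ : Finset α)).card := by
        refine card_le_card_of_injOn (fun B => B.erase u) (fun B hB => ?_) (fun B1 hB1 B2 hB2 h => ?_)
        · have hB := mem_filter.1 (mem_coe.1 hB)
          refine mem_coe.2 (mem_powersetCard.2 ⟨subset_univ _, ?_⟩)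
          rw [card_erase_of_mem hB.2, (mem_powersetCard.1 hB.1).2]; rfl
        · simp only at h
          rw [← insert_erase (mem_filter.1 (mem_coe.1 hB1)).2,
            ← insert_erase (mem_filter.1 (mem_coe.1 hB2)).2, h]
      rw [card_powersetCard, card_univ] at this
      exact_mod_cast this
    refine (sum_le_sum a2).trans (le_of_eq ?_)
    rw [sum_const, hr, nsmul_eq_mul]; ring
  have mid : ∑ B ∈ Bs, ∑ u ∈ B, ∑ S : Finset ι, (if Q B u S then co p f S ^ 2 else 0) ≤
      c * ∑ B ∈ Bs, ∑ u ∈ B, ∑ e ∈ Jb V B u, x e := by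
    rw [mul_sum]
    refine sum_le_sum fun B hB => ?_
    rw [mul_sum]
    refine sum_le_sum fun u hu => ?_
    refine block h0 h1 V hV τ hτ f hf hf1 B hu D s hs ?_
    rw [(mem_powersetCard.1 hB).2]; push_cast; exact hsk
  refine le_of_mul_le_mul_right ?_ hC
  rw [sum_mul]
  refine (sum_le_sum fun S _ => low S).trans ?_
  rw [← mul_sum, sum_comm]
  simp only [sum_comm (s := (univ : Finset (Finset ι)))]
  have := mul_le_mul_of_nonneg_left up hc0
  nlinarith

end Crest.Agent.H0077
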