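import Mathlib
import Crest.Prelude.Def_FinProb

/-! Biased Fourier analysis on the finite cube. -/

set_option autoImplicit false
set_option linter.unusedSectionVars false

namespace Crest.Agent.H0077
open Finset Crest.FinProb

variable {ι : Type*} [Fintype ι] [DecidableEq ι]

noncomputable def Ex (p : ℝ) (F : (ι → Bool) → ℝ) : ℝ := ∑ ω, bernoulliWeight p ω * F ω

noncomputable def sg (p : ℝ) : ℝ := Real.sqrt (p * (1 - p))

noncomputable def phi (p : ℝ) (b : Bool) : ℝ := (if b then 1 - p else -p) / sg p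

noncomputable def chi (p : ℝ) (S : Finset ι) (ω : ι → Bool) : ℝ := ∏ i ∈ S, phi p (ω i)

noncomputable def co (p : ℝ) (F : (ι → Bool) → ℝ) (S : Finset ι) : ℝ :=
  Ex p (fun ω => F ω * chi p S ω)

noncomputable def ser (p : ℝ) (c : Finset ι → ℝ) (ω : ι → Bool) : ℝ := ∑ S, c S * chi p S ω

noncomputable def Av (p : ℝ) (i : ι) (F : (ι → Bool) → ℝ) (ω : ι → Bool) : ℝ :=
  p * F (Function.update ω i true) + (1 - p) * F (Function.update ω i false)

variable {p : ℝ}

lemma sg_pos (h0 : 0 < p) (h1 : p < 1) : 0 < sg p :=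
  Real.sqrt_pos.2 (mul_pos h0 (by linarith))

lemma sg_sq (h0 : 0 < p) (h1 : p < 1) : sg p ^ 2 = p * (1 - p) :=
  Real.sq_sqrt (mul_pos h0 (by linarith)).le

lemma sg_le (h0 : 0 < p) (h1 : p < 1) : sg p ≤ 1 / 2 := by
  have h := sg_sq h0 h1
  have h2 := sg_pos h0 h1
  nlinarith [sq_nonneg (p - 1 / 2)]

lemma wt_nonneg (h0 : 0 ≤ p) (h1 : p ≤ 1) (ω : ι → Bool) : 0 ≤ bernoulliWeight p ω := by
  unfold bernoulliWeight
  refine prod_nonneg fun i _ => ?_
  split_ifs <;> linarith

lemma Ex_prod (g : ι → Bool → ℝ) :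
    Ex p (fun ω => ∏ i, g i (ω i)) = ∏ i, (p * g i true + (1 - p) * g i false) := by
  have h := Finset.prod_univ_sum (fun _ : ι => (univ : Finset Bool))
    (fun i b => (if b then p else 1 - p) * g i b)
  rw [Fintype.piFinset_univ] at h
  unfold Ex bernoulliWeight
  simp only [← prod_mul_distrib]
  rw [← h]
  refine prod_congr rfl fun i _ => ?_
  simp

lemma Ex_const (a : ℝ) : Ex p (fun _ : ι → Bool => a) = a := by
  have h := Ex_prod (ι := ι) (p := p) (fun _ _ => 1)
  simp only [prod_const_one, mul_one, add_sub_cancel] at h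
  unfold Ex at h ⊢
  simp only [mul_one] at h
  rw [← sum_mul, h, one_mul]

lemma Ex_add (F G : (ι → Bool) → ℝ) : Ex p (fun ω => F ω + G ω) = Ex p F + Ex p G := by
  unfold Ex; simp only [mul_add, sum_add_distrib]

lemma Ex_mul (a : ℝ) (F : (ι → Bool) → ℝ) : Ex p (fun ω => a * F ω) = a * Ex p F := by
  unfold Ex; rw [mul_sum]; exact sum_congr rfl fun _ _ => by ring

lemma Ex_sum {κ : Type*} (s : Finset κ) (F : κ → (ι → Bool) → ℝ) :
    Ex p (fun ω => ∑ k ∈ s, F k ω) = ∑ k ∈ s, Ex p (F k) := by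
  unfold Ex; simp only [mul_sum]; exact sum_comm

lemma Ex_mono (h0 : 0 ≤ p) (h1 : p ≤ 1) {F G : (ι → Bool) → ℝ} (h : ∀ ω, F ω ≤ G ω) :
    Ex p F ≤ Ex p G :=
  sum_le_sum fun ω _ => mul_le_mul_of_nonneg_left (h ω) (wt_nonneg h0 h1 ω)

lemma Ex_nonneg (h0 : 0 ≤ p) (h1 : p ≤ 1) {F : (ι → Bool) → ℝ} (h : ∀ ω, 0 ≤ F ω) :
    0 ≤ Ex p F :=
  sum_nonneg fun ω _ => mul_nonneg (wt_nonneg h0 h1 ω) (h ω)

lemma Ex_abs (h0 : 0 ≤ p) (h1 : p ≤ 1) (F : (ι → Bool) → ℝ) :
    |Ex p F| ≤ Ex p (fun ω => |F ω|) := by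
  unfold Ex
  refine (abs_sum_le_sum_abs _ _).trans (le_of_eq (sum_congr rfl fun ω _ => ?_))
  rw [abs_mul, abs_of_nonneg (wt_nonneg h0 h1 ω)]

lemma Ex_cs (h0 : 0 ≤ p) (h1 : p ≤ 1) (R F G : (ι → Bool) → ℝ) (hF : ∀ ω, 0 ≤ F ω)
    (hG : ∀ ω, 0 ≤ G ω) (h : ∀ ω, R ω ^ 2 = F ω * G ω) : Ex p R ^ 2 ≤ Ex p F * Ex p G := by
  unfold Ex
  refine sum_sq_le_sum_mul_sum_of_sq_le_mul _
    (fun ω _ => mul_nonneg (wt_nonneg h0 h1 ω) (hF ω))
    (fun ω _ => mul_nonneg (wt_nonneg h0 h1 ω) (hG ω)) (fun ω _ => le_of_eq ?_)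
  rw [mul_pow, h]; ring

lemma chi_eq (S : Finset ι) (ω : ι → Bool) :
    chi p S ω = ∏ i, if i ∈ S then phi p (ω i) else 1 := by
  unfold chi; rw [prod_ite_mem, univ_inter]

lemma phi_mean : p * phi p true + (1 - p) * phi p false = 0 := by
  unfold phi; simp only [if_true, Bool.false_eq_true, if_false]; ring

lemma phi_sq (h0 : 0 < p) (h1 : p < 1) :
    p * (phi p true * phi p true) + (1 - p) * (phi p false * phi p false) = 1 := by
  have h := sg_sq h0 h1
  have h2 := (sg_pos h0 h1).ne'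
  unfold phi; simp only [if_true, Bool.false_eq_true, if_false]
  field_simp
  rw [h]; ring

lemma Ex_chi_chi (h0 : 0 < p) (h1 : p < 1) (S T : Finset ι) :
    Ex p (fun ω => chi p S ω * chi p T ω) = if S = T then 1 else 0 := by
  simp only [chi_eq, ← prod_mul_distrib]
  rw [Ex_prod (fun i b => (if i ∈ S then phi p b else 1) * (if i ∈ T then phi p b else 1))]
  split_ifs with h
  · subst h
    refine prod_eq_one fun i _ => ?_
    by_cases hi : i ∈ S
    · simp only [hi, if_true]; exact phi_sq h0 h1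
    · simp only [hi, if_false]; ring
  · have : ∃ i, ¬ (i ∈ S ↔ i ∈ T) := by
      by_contra hc
      push Not at hc
      exact h (Finset.ext hc)
    obtain ⟨i, hi⟩ := this
    refine prod_eq_zero (mem_univ i) ?_
    by_cases hS : i ∈ S
    · have hT : i ∉ T := fun hT => hi ⟨fun _ => hT, fun _ => hS⟩
      simp only [hS, hT, if_true, if_false, mul_one]; exact phi_mean
    · have hT : i ∈ T := by
        by_contra hT
        exact hi ⟨fun h => absurd h hS, fun h => absurd h hT⟩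
      simp only [hS, hT, if_true, if_false, one_mul]; exact phi_mean

lemma chi_empty (ω : ι → Bool) : chi p ∅ ω = 1 := by simp [chi]

lemma Ex_chi (h0 : 0 < p) (h1 : p < 1) (S : Finset ι) :
    Ex p (chi p S) = if S = ∅ then 1 else 0 := by
  rw [← Ex_chi_chi h0 h1 S ∅]; simp only [chi_empty, mul_one]

lemma kernel (h0 : 0 < p) (h1 : p < 1) (ω ω' : ι → Bool) :
    bernoulliWeight p ω' * ∑ S : Finset ι, chi p S ω' * chi p S ω = if ω' = ω then 1 else 0 := by
  have e1 : ∑ S : Finset ι, chi p S ω' * chi p S ω = ∏ i, (1 + phi p (ω' i) * phi p (ω i)) := by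
    rw [prod_one_add, powerset_univ]
    refine sum_congr rfl fun S _ => ?_
    unfold chi; rw [prod_mul_distrib]
  rw [e1]
  unfold bernoulliWeight
  rw [← prod_mul_distrib]
  have h := sg_sq h0 h1
  have h2 := (sg_pos h0 h1).ne'
  have key : ∀ b' b : Bool, (if b' = true then p else 1 - p) * (1 + phi p b' * phi p b) =
      if b' = b then 1 else 0 := by
    intro b' b
    unfold phi
    cases b' <;> cases b <;> simp <;> field_simp <;> (try right) <;> rw [h] <;> ring
  simp only [key]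
  split_ifs with hω
  · subst hω; simp
  · obtain ⟨i, hi⟩ := Function.ne_iff.1 hω
    exact prod_eq_zero (mem_univ i) (if_neg hi)

lemma expansion (h0 : 0 < p) (h1 : p < 1) (F : (ι → Bool) → ℝ) (ω : ι → Bool) :
    F ω = ser p (co p F) ω := by
  unfold ser co Ex
  simp only [sum_mul]
  rw [sum_comm]
  have : ∀ ω' : ι → Bool, ∑ S : Finset ι, bernoulliWeight p ω' * (F ω' * chi p S ω') * chi p S ω
      = if ω' = ω then F ω' else 0 := by
    intro ω'
    have := kernel h0 h1 ω ω'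
    calc _ = F ω' * (bernoulliWeight p ω' * ∑ S : Finset ι, chi p S ω' * chi p S ω) := by
          rw [mul_sum, mul_sum]; exact sum_congr rfl fun _ _ => by ring
      _ = _ := by rw [this]; split_ifs <;> simp
  simp only [this, sum_ite_eq', mem_univ, if_true]

lemma co_ser (h0 : 0 < p) (h1 : p < 1) (c : Finset ι → ℝ) (T : Finset ι) :
    co p (ser p c) T = c T := by
  unfold co ser
  simp only [sum_mul, mul_assoc]
  rw [Ex_sum]
  simp only [Ex_mul, Ex_chi_chi h0 h1, mul_ite, mul_one, mul_zero, sum_ite_eq', mem_univ, if_true]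

lemma Ex_ser_mul (c : Finset ι → ℝ) (G : (ι → Bool) → ℝ) :
    Ex p (fun ω => ser p c ω * G ω) = ∑ S, c S * co p G S := by
  unfold ser co
  simp only [sum_mul, mul_assoc]
  rw [Ex_sum]
  simp only [Ex_mul, mul_comm (chi p _ _)]

lemma Ex_ser_ser (h0 : 0 < p) (h1 : p < 1) (c c' : Finset ι → ℝ) :
    Ex p (fun ω => ser p c ω * ser p c' ω) = ∑ S, c S * c' S := by
  rw [Ex_ser_mul]; simp only [co_ser h0 h1]

lemma parseval (h0 : 0 < p) (h1 : p < 1) (F : (ι → Bool) → ℝ) :
    Ex p (fun ω => F ω ^ 2) = ∑ S, co p F S ^ 2 := by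
  have := Ex_ser_ser h0 h1 (co p F) (co p F)
  simp only [← expansion h0 h1 F] at this
  simp only [sq]; exact this

lemma co_empty (F : (ι → Bool) → ℝ) : co p F ∅ = Ex p F := by
  unfold co; simp only [chi_empty, mul_one]

lemma Ex_ser (h0 : 0 < p) (h1 : p < 1) (c : Finset ι → ℝ) : Ex p (ser p c) = c ∅ := by
  rw [← co_empty, co_ser h0 h1]

lemma chi_update_not_mem {S : Finset ι} {i : ι} (hi : i ∉ S) (ω : ι → Bool) (b : Bool) :
    chi p S (Function.update ω i b) = chi p S ω := by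
  unfold chi
  refine prod_congr rfl fun j hj => ?_
  rw [Function.update_of_ne (fun h : j = i => hi (h ▸ hj))]

lemma chi_insert {S : Finset ι} {i : ι} (hi : i ∉ S) (ω : ι → Bool) :
    chi p (insert i S) ω = phi p (ω i) * chi p S ω := by
  unfold chi; rw [prod_insert hi]

lemma Av_chi (S : Finset ι) (i : ι) (ω : ι → Bool) :
    Av p i (chi p S) ω = if i ∈ S then 0 else chi p S ω := by
  unfold Av
  split_ifs with hi
  · rw [← insert_erase hi, chi_insert (notMem_erase i S), chi_insert (notMem_erase i S),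
      chi_update_not_mem (notMem_erase i S), chi_update_not_mem (notMem_erase i S)]
    simp only [Function.update_self]
    have := phi_mean (p := p)
    linear_combination (chi p (S.erase i) ω) * this
  · rw [chi_update_not_mem hi, chi_update_not_mem hi]; ring

lemma Av_ser (c : Finset ι → ℝ) (i : ι) (ω : ι → Bool) :
    Av p i (ser p c) ω = ser p (fun S => if i ∈ S then 0 else c S) ω := by
  have : Av p i (ser p c) ω = ∑ S, c S * Av p i (chi p S) ω := by
    unfold Av ser
    rw [mul_sum, mul_sum, ← sum_add_distrib]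
    exact sum_congr rfl fun _ _ => by ring
  rw [this]
  unfold ser
  refine sum_congr rfl fun S _ => ?_
  rw [Av_chi]; by_cases hi : i ∈ S <;> simp [hi]

lemma Ex_Av (h0 : 0 < p) (h1 : p < 1) (i : ι) (F : (ι → Bool) → ℝ) :
    Ex p (Av p i F) = Ex p F := by
  have hF : F = ser p (co p F) := funext (expansion h0 h1 F)
  have : Av p i F = ser p (fun S => if i ∈ S then 0 else co p F S) := by
    funext ω; rw [← Av_ser, ← hF]
  rw [this, Ex_ser h0 h1]; simp [co_empty]

/-- `L e F = F - Av e F`. -/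
noncomputable def Lp (p : ℝ) (i : ι) (F : (ι → Bool) → ℝ) (ω : ι → Bool) : ℝ :=
  F ω - Av p i F ω

lemma Lp_eq (h0 : 0 < p) (h1 : p < 1) (i : ι) (F : (ι → Bool) → ℝ) :
    Lp p i F = ser p (fun S => if i ∈ S then co p F S else 0) := by
  funext ω
  have hF : F = ser p (co p F) := funext (expansion h0 h1 F)
  have : Av p i F ω = ser p (fun S => if i ∈ S then 0 else co p F S) ω := by
    rw [← Av_ser, ← hF]
  unfold Lp
  rw [this, expansion h0 h1 F ω]
  unfold ser
  rw [← sum_sub_distrib]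
  refine sum_congr rfl fun S _ => ?_
  by_cases hi : i ∈ S <;> simp [hi]

lemma chi_piecewise (A S : Finset ι) (ω' ω : ι → Bool) :
    chi p S (A.piecewise ω' ω) = chi p (S ∩ A) ω' * chi p (S \ A) ω := by
  unfold chi
  rw [← prod_inter_mul_prod_sdiff S A]
  congr 1
  · exact prod_congr rfl fun i hi => by rw [piecewise_eq_of_mem _ _ _ (mem_inter.1 hi).2]
  · exact prod_congr rfl fun i hi => by rw [piecewise_eq_of_notMem _ _ _ (mem_sdiff.1 hi).2]

/-- averaging the coordinates outside `A` -/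
lemma Ex_piecewise_ser (h0 : 0 < p) (h1 : p < 1) (A : Finset ι) (c : Finset ι → ℝ)
    (ω' : ι → Bool) :
    Ex p (fun ω => ser p c (A.piecewise ω' ω)) = ser p (fun S => if S ⊆ A then c S else 0) ω' := by
  unfold ser
  rw [Ex_sum]
  refine sum_congr rfl fun S _ => ?_
  simp only [chi_piecewise, ← mul_assoc]
  rw [Ex_mul, Ex_chi h0 h1]
  by_cases h : S ⊆ A
  · rw [if_pos (sdiff_eq_empty_iff_subset.2 h), if_pos h, inter_eq_left.2 h, mul_one]
  · rw [if_neg (fun h' => h (sdiff_eq_empty_iff_subset.1 h')), if_neg h]; simp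

lemma Ex_Ex_piecewise (h0 : 0 < p) (h1 : p < 1) (A : Finset ι) (F : (ι → Bool) → ℝ) :
    Ex p (fun ω' => Ex p (fun ω => F (A.piecewise ω' ω))) = Ex p F := by
  have hF : F = ser p (co p F) := funext (expansion h0 h1 F)
  conv_lhs => rw [hF]
  simp only [Ex_piecewise_ser h0 h1]
  rw [Ex_ser h0 h1]; simp [co_empty]

lemma Ex_comm (F : (ι → Bool) → (ι → Bool) → ℝ) :
    Ex p (fun ω => Ex p (fun ω' => F ω ω')) = Ex p (fun ω' => Ex p (fun ω => F ω ω')) := by
  unfold Ex
  simp only [mul_sum]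
  rw [sum_comm]
  exact sum_congr rfl fun _ _ => sum_congr rfl fun _ _ => by ring

end Crest.Agent.H0077
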