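import Crest.Agent.H0077.Block

/-! The variance / influence inequality for vertex-symmetric Boolean functions. -/

set_option autoImplicit false
set_option linter.unusedSectionVars false

namespace Crest.Agent.H0077
open Finset Crest.FinProb

variable {ι : Type*} [Fintype ι] [DecidableEq ι] {p : ℝ}
variable {α : Type*} [Fintype α] [DecidableEq α]

/-- discrete derivative -/
def dl (f : (ι → Bool) → ℝ) (e : ι) (ω : ι → Bool) : ℝ :=
  f (Function.update ω e true) - f (Function.update ω e false)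

lemma Ex_Lp_sq (h0 : 0 < p) (h1 : p < 1) (f : (ι → Bool) → ℝ) (e : ι) :
    Ex p (fun ω => Lp p e f ω ^ 2) = p * (1 - p) * Ex p (fun ω => dl f e ω ^ 2) := by
  rw [← Ex_Av h0 h1 e, ← Ex_mul]
  congr 1
  funext ω
  simp only [Av, Lp, dl, Function.update_idem]
  ring

lemma Ex_Lp_abs (h0 : 0 < p) (h1 : p < 1) (f : (ι → Bool) → ℝ) (hf : ∀ ω, f ω = 0 ∨ f ω = 1)
    (e : ι) :
    Ex p (fun ω => |Lp p e f ω|) = 2 * (p * (1 - p)) * Ex p (fun ω => dl f e ω ^ 2) := by
  rw [← Ex_Av h0 h1 e, ← Ex_mul]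
  congr 1
  funext ω
  simp only [Av, Lp, dl, Function.update_idem]
  have e1 : ∀ a b : ℝ, a - (p * a + (1 - p) * b) = (1 - p) * (a - b) := fun a b => by ring
  have e2 : ∀ a b : ℝ, b - (p * a + (1 - p) * b) = -p * (a - b) := fun a b => by ring
  rw [e1, e2, abs_mul, abs_mul, abs_neg, abs_of_pos h0, abs_of_pos (by linarith : 0 < 1 - p)]
  have : |f (Function.update ω e true) - f (Function.update ω e false)| =
      (f (Function.update ω e true) - f (Function.update ω e false)) ^ 2 := by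
    rcases hf (Function.update ω e true) with h | h <;>
      rcases hf (Function.update ω e false) with h' | h' <;> rw [h, h'] <;> norm_num
  rw [this]; ring

lemma sum_card_co (h0 : 0 < p) (h1 : p < 1) (f : (ι → Bool) → ℝ) :
    ∑ S : Finset ι, (S.card : ℝ) * co p f S ^ 2 =
      p * (1 - p) * ∑ e, Ex p (fun ω => dl f e ω ^ 2) := by
  rw [mul_sum]
  simp only [← Ex_Lp_sq h0 h1]
  simp only [parseval h0 h1, Lp_eq h0 h1, co_ser h0 h1]
  rw [sum_comm]
  refine sum_congr rfl fun S _ => ?_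
  simp only [ite_pow, ne_eq, OfNat.ofNat_ne_zero, not_false_eq_true, zero_pow]
  rw [← sum_filter, sum_const, nsmul_eq_mul, filter_mem_eq_inter, univ_inter]

lemma var_eq (h0 : 0 < p) (h1 : p < 1) (f : (ι → Bool) → ℝ) (hf : ∀ ω, f ω = 0 ∨ f ω = 1) :
    Ex p f * (1 - Ex p f) = ∑ S : Finset ι, if S.Nonempty then co p f S ^ 2 else 0 := by
  have e1 : Ex p (fun ω => f ω ^ 2) = Ex p f := by
    congr 1; funext ω; rcases hf ω with h | h <;> rw [h] <;> norm_num
  rw [parseval h0 h1] at e1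
  have e2 : ∀ S : Finset ι, co p f S ^ 2 = (if S.Nonempty then co p f S ^ 2 else 0) +
      if S = ∅ then co p f S ^ 2 else 0 := by
    intro S
    rcases S.eq_empty_or_nonempty with h | h
    · subst h; simp
    · rw [if_pos h, if_neg h.ne_empty, add_zero]
  rw [sum_congr rfl fun S _ => e2 S, sum_add_distrib, sum_ite_eq', if_pos (mem_univ _),
    co_empty] at e1
  linarith

lemma deg_lemma (V : ι → Finset α) (hV : Function.Injective V) (r : ℕ) (hr2 : 2 ≤ r)
    (hr : ∀ e, (V e).card = r) (S : Finset ι) (hS : S.Nonempty) (D : ℕ)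
    (hdeg : ∀ u ∈ S.biUnion V, D + 1 ≤ (S.filter fun e => u ∈ V e).card) :
    ((D : ℝ) + 1) ^ ((r : ℝ) / (r - 1)) ≤ r * S.card := by
  set W := S.biUnion V with hW
  have h1 : W.card * (D + 1) ≤ r * S.card := by
    calc W.card * (D + 1) ≤ ∑ u ∈ W, (S.filter fun e => u ∈ V e).card := by
          rw [← smul_eq_mul]; exact card_nsmul_le_sum _ _ _ hdeg
      _ = ∑ e ∈ S, (W.filter fun u => u ∈ V e).card := by
          simp only [card_filter]; exact sum_comm
      _ ≤ ∑ e ∈ S, r := sum_le_sum fun e _ => by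
          rw [← hr e]; exact card_le_card fun u hu => (mem_filter.1 hu).2
      _ = r * S.card := by rw [sum_const, smul_eq_mul, mul_comm]
  obtain ⟨e0, he0⟩ := hS
  obtain ⟨u, hu⟩ : (V e0).Nonempty := card_pos.1 (by rw [hr]; omega)
  have huW : u ∈ W := mem_biUnion.2 ⟨e0, he0, hu⟩
  have h2 : D + 1 ≤ W.card ^ (r - 1) := by
    refine (hdeg u huW).trans (le_trans ?_ (Nat.choose_le_pow _ _))
    rw [← card_powersetCard]
    refine card_le_card_of_injOn (fun e => (V e).erase u) (fun e he => ?_)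
      (fun e1 he1 e2 he2 h => hV ?_)
    · have he := mem_filter.1 (mem_coe.1 he)
      refine mem_coe.2 (mem_powersetCard.2 ⟨fun y hy => ?_, ?_⟩)
      · exact mem_biUnion.2 ⟨e, he.1, mem_of_mem_erase hy⟩
      · rw [card_erase_of_mem he.2, hr]
    · simp only at h
      rw [← insert_erase (mem_filter.1 (mem_coe.1 he1)).2,
        ← insert_erase (mem_filter.1 (mem_coe.1 he2)).2, h]
  have hr1 : (0 : ℝ) < r - 1 := by
    have : (2 : ℝ) ≤ r := by exact_mod_cast hr2
    linarith
  have h3 : ((D : ℝ) + 1) ^ (1 / ((r : ℝ) - 1)) ≤ W.card := by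
    have h4 : ((D : ℝ) + 1) ≤ (W.card : ℝ) ^ ((r : ℝ) - 1) := by
      have : ((r : ℝ) - 1) = ((r - 1 : ℕ) : ℝ) := by rw [Nat.cast_sub (by omega)]; simp
      rw [this, Real.rpow_natCast]; exact_mod_cast h2
    calc _ ≤ ((W.card : ℝ) ^ ((r : ℝ) - 1)) ^ (1 / ((r : ℝ) - 1)) :=
          Real.rpow_le_rpow (by positivity) h4 (by positivity)
      _ = _ := by
          rw [← Real.rpow_mul (by positivity), mul_one_div_cancel hr1.ne', Real.rpow_one]
  have h5 : (r : ℝ) / (r - 1) = 1 / ((r : ℝ) - 1) + 1 := by field_simp; ring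
  rw [h5, Real.rpow_add (by positivity), Real.rpow_one]
  have h6 : ((W.card : ℝ)) * (D + 1) ≤ r * S.card := by exact_mod_cast h1
  exact (mul_le_mul_of_nonneg_right h3 (by positivity)).trans h6

set_option maxHeartbeats 1600000 in
theorem var_le (h0 : 0 < p) (h1 : p < 1) (V : ι → Finset α) (hV : Function.Injective V)
    (r : ℕ) (hr2 : 2 ≤ r) (hr : ∀ e, (V e).card = r) (τ : Equiv.Perm α → Equiv.Perm ι)
    (hτ : ∀ σ e, V (τ σ e) = (V e).map σ.toEmbedding) (f : (ι → Bool) → ℝ)
    (hf : ∀ σ ω, f (ω ∘ τ σ) = f ω) (hf01 : ∀ ω, f ω = 0 ∨ f ω = 1)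
    (hn : 2 ≤ Fintype.card α) :
    Ex p f * (1 - Ex p f) ≤ 384 * r / Real.log (Fintype.card α) ^ ((r : ℝ) / (r - 1)) *
      ∑ e, Ex p (fun ω => dl f e ω ^ 2) := by
  set n := Fintype.card α with hn'
  set I := ∑ e, Ex p (fun ω => dl f e ω ^ 2) with hI
  have hI0 : 0 ≤ I := sum_nonneg fun _ _ => Ex_nonneg h0.le h1.le fun _ => sq_nonneg _
  set x := Real.log n with hx
  have hn1 : (1 : ℝ) < n := by exact_mod_cast hn
  have hx0 : 0 < x := Real.log_pos hn1
  set γ : ℝ := (r : ℝ) / (r - 1) with hγ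
  have hr2' : (2 : ℝ) ≤ r := by exact_mod_cast hr2
  have hγ2 : γ ≤ 2 := by rw [hγ, div_le_iff₀ (by linarith)]; linarith
  have hγ0 : 0 ≤ γ := div_nonneg (by linarith) (by linarith)
  have hxγ : 0 < x ^ γ := Real.rpow_pos_of_pos hx0 _
  have hσ := sg_sq h0 h1
  have hσ0 := sg_pos h0 h1
  have hσ1 := sg_le h0 h1
  have hp4 : p * (1 - p) ≤ 1 / 4 := by nlinarith [sq_nonneg (p - 1 / 2)]
  have hp0 : 0 ≤ p * (1 - p) := by rw [← hσ]; positivity
  have hcard := sum_card_co h0 h1 f
  rw [← hI] at hcard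
  rw [var_eq h0 h1 f hf01]
  rcases lt_or_ge x 24 with hx24 | hx24
  · have a1 : ∑ S : Finset ι, (if S.Nonempty then co p f S ^ 2 else 0) ≤ p * (1 - p) * I := by
      rw [← hcard]
      refine sum_le_sum fun S _ => ?_
      split_ifs with h
      · have : (1 : ℝ) ≤ S.card := by exact_mod_cast card_pos.2 h
        nlinarith [sq_nonneg (co p f S)]
      · positivity
    refine a1.trans (mul_le_mul_of_nonneg_right (hp4.trans ?_) hI0)
    rw [le_div_iff₀ hxγ]
    have a2 : x ^ γ ≤ 576 := by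
      calc x ^ γ ≤ (24 : ℝ) ^ γ := Real.rpow_le_rpow hx0.le hx24.le hγ0
        _ ≤ (24 : ℝ) ^ (2 : ℝ) := Real.rpow_le_rpow_of_exponent_le (by norm_num) hγ2
        _ = 576 := by norm_num
    linarith
  set K := 2 / sg p with hK
  have hK4 : 4 ≤ K := K_ge h0 h1
  set L := Real.log K with hL
  have hL1 : 1 ≤ L := by
    rw [hL, Real.le_log_iff_exp_le (by linarith)]
    linarith [Real.exp_one_lt_d9]
  have hLK : sg p * L ≤ 2 := by
    have : L ≤ K := (Real.log_le_sub_one_of_pos (by linarith)).trans (by linarith)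
    calc sg p * L ≤ sg p * K := mul_le_mul_of_nonneg_left this hσ0.le
      _ = 2 := by rw [hK]; field_simp
  set D := ⌊x / (8 * L)⌋₊ with hD
  have hD1 : (D : ℝ) ≤ x / (8 * L) := Nat.floor_le (by positivity)
  have hD2 : x / (8 * L) < D + 1 := Nat.lt_floor_add_one _
  have hD3 : (D : ℝ) ≤ x / 8 :=
    hD1.trans (div_le_div_of_nonneg_left hx0.le (by norm_num) (by linarith))
  have hKD : K ^ D ≤ Real.exp (x / 8) := by
    have : K ^ D = Real.exp (D * L) := by
      rw [Real.exp_nat_mul, hL, Real.exp_log (by linarith)]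
    rw [this]
    refine Real.exp_le_exp.2 ?_
    rw [le_div_iff₀ (by positivity)] at hD1
    linarith
  set t : ℝ := ((D : ℝ) + 1) ^ γ with ht
  have ht0 : 0 < t := Real.rpow_pos_of_pos (by positivity) _
  have ht2 : t ≤ ((D : ℝ) + 1) ^ 2 := by
    rw [← Real.rpow_two]
    exact Real.rpow_le_rpow_of_exponent_le (by linarith [Nat.cast_nonneg (α := ℝ) D]) hγ2
  set k := Nat.sqrt n with hk
  set E := Real.exp (x / 2) with hE
  have hE0 : 0 < E := Real.exp_pos _
  have hEn : E ^ 2 = n := by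
    rw [hE, ← Real.exp_nat_mul]; push_cast
    rw [show 2 * (x / 2) = x by ring, hx, Real.exp_log (by linarith)]
  have hk1 : (k : ℝ) ≤ E := by
    refine (abs_le_of_sq_le_sq' ?_ hE0.le).2
    rw [hEn]; exact_mod_cast Nat.sqrt_le' n
  have hk2 : E ≤ (k : ℝ) + 1 := by
    refine (abs_le_of_sq_le_sq' ?_ (by positivity)).2
    rw [hEn]; exact_mod_cast (Nat.lt_succ_sqrt' n).le
  have hv4 : 4 * ((D : ℝ) + 1) ^ 2 ≤ E := by
    have a1 : (D : ℝ) + 1 ≤ x / 6 := by linarith
    have a2 : ((D : ℝ) + 1) ^ 2 ≤ (x / 6) ^ 2 := pow_le_pow_left₀ (by positivity) a1 2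
    have a3 := Real.quadratic_le_exp_of_nonneg (show 0 ≤ x / 2 by positivity)
    nlinarith
  have hE1 : 1 ≤ E := by nlinarith [Nat.cast_nonneg (α := ℝ) D]
  have hlow := low_mass h0 h1 V hV r hr τ hτ f hf
    (fun ω => by rcases hf01 ω with h | h <;> rw [h] <;> norm_num) D k ((D + 1) ^ 2)
    (Real.exp (-(x / 4))) (Real.exp_pos _).le
    (by
      have : Real.exp (-(x / 4)) ^ 2 * E = 1 := by
        rw [hE, ← Real.exp_nat_mul, ← Real.exp_add]; push_cast
        rw [show 2 * -(x / 4) + x / 2 = 0 by ring, Real.exp_zero]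
      nlinarith [sq_nonneg (Real.exp (-(x / 4)))])
    (by
      have : 2 * ((D : ℝ) + 1) ^ 2 ≤ n := by nlinarith
      exact_mod_cast this)
    (by
      have : 4 * ((D : ℝ) + 1) ^ 2 * k ≤ n := by
        rw [← hEn, sq E]; exact mul_le_mul hv4 hk1 (by positivity) hE0.le
      exact_mod_cast this)
    (Nat.sqrt_le_self n) (by omega)
    (fun S => S.Nonempty ∧ (r : ℝ) * S.card < t)
    (by
      intro S hS
      constructor
      · have a1 : (S.biUnion V).card ≤ r * S.card := by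
          refine card_biUnion_le.trans (le_of_eq ?_)
          rw [sum_congr rfl fun e _ => hr e, sum_const, smul_eq_mul, mul_comm]
        have a2 : (((S.biUnion V).card : ℕ) : ℝ) ≤ r * S.card := by exact_mod_cast a1
        have a3 : (((S.biUnion V).card : ℕ) : ℝ) ≤ ((D : ℝ) + 1) ^ 2 := by linarith [hS.2]
        exact_mod_cast a3
      · by_contra hc
        push Not at hc
        exact absurd (deg_lemma V hV r hr2 hr S hS.1 D hc) (not_le.2 hS.2))
  simp only [Ex_Lp_abs h0 h1 f hf01] at hlow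
  rw [← mul_sum, ← hI, ← hK] at hlow
  have split : ∑ S : Finset ι, (if S.Nonempty then co p f S ^ 2 else 0) ≤
      ∑ S : Finset ι, (if S.Nonempty ∧ (r : ℝ) * S.card < t then co p f S ^ 2 else 0) +
        r / t * (p * (1 - p) * I) := by
    rw [← hcard, mul_sum, ← sum_add_distrib]
    refine sum_le_sum fun S _ => ?_
    have hnn : 0 ≤ r / t * ((S.card : ℝ) * co p f S ^ 2) := by positivity
    by_cases h : S.Nonempty
    · rw [if_pos h]
      by_cases h' : (r : ℝ) * S.card < t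
      · rw [if_pos ⟨h, h'⟩]; linarith
      · rw [if_neg fun h2 => h' h2.2, zero_add, ← mul_assoc]
        have : 1 ≤ r / t * S.card := by
          rw [div_mul_eq_mul_div, le_div_iff₀ ht0]; linarith [not_lt.1 h']
        nlinarith [sq_nonneg (co p f S)]
    · rw [if_neg h, if_neg fun h2 => h h2.1]; linarith
  have hxx : x ^ γ ≤ x ^ 2 := by
    rw [← Real.rpow_two]
    exact Real.rpow_le_rpow_of_exponent_le (by linarith) hγ2
  have b1 : K ^ D * Real.exp (-(x / 4)) ≤ 128 / x ^ γ := by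
    have a1 : K ^ D * Real.exp (-(x / 4)) ≤ Real.exp (-(x / 8)) := by
      refine (mul_le_mul_of_nonneg_right hKD (Real.exp_pos _).le).trans (le_of_eq ?_)
      rw [← Real.exp_add]; congr 1; ring
    refine a1.trans ?_
    rw [Real.exp_neg, le_div_iff₀ hxγ, inv_mul_le_iff₀ (Real.exp_pos _)]
    have a3 := Real.quadratic_le_exp_of_nonneg (show 0 ≤ x / 8 by positivity)
    nlinarith
  have b2 : p * (1 - p) / t ≤ 256 / x ^ γ := by
    have a1 : (x / (8 * L)) ^ γ ≤ t := Real.rpow_le_rpow (by positivity) hD2.le hγ0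
    rw [Real.div_rpow hx0.le (by positivity), div_le_iff₀ (by positivity)] at a1
    have a2 : (8 * L) ^ γ ≤ (8 * L) ^ 2 := by
      rw [← Real.rpow_two]
      exact Real.rpow_le_rpow_of_exponent_le (by linarith) hγ2
    have a3 : p * (1 - p) * (8 * L) ^ 2 ≤ 256 := by
      rw [← hσ]
      have := pow_le_pow_left₀ (by positivity) hLK 2
      nlinarith
    rw [div_le_div_iff₀ ht0 hxγ]
    calc p * (1 - p) * x ^ γ ≤ p * (1 - p) * (t * (8 * L) ^ 2) :=
          mul_le_mul_of_nonneg_left (a1.trans (mul_le_mul_of_nonneg_left a2 ht0.le)) hp0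
      _ = (p * (1 - p) * (8 * L) ^ 2) * t := by ring
      _ ≤ 256 * t := mul_le_mul_of_nonneg_right a3 ht0.le
  have hr0 : (0 : ℝ) ≤ r := by linarith
  have b3 : 2 * r * (K ^ D * Real.exp (-(x / 4))) * (2 * (p * (1 - p)) * I) ≤
      r * (128 / x ^ γ) * I := by
    have a1 : 0 ≤ K ^ D * Real.exp (-(x / 4)) := by positivity
    calc _ = r * (K ^ D * Real.exp (-(x / 4))) * I * (4 * (p * (1 - p))) := by ring
      _ ≤ r * (K ^ D * Real.exp (-(x / 4))) * I * 1 :=
          mul_le_mul_of_nonneg_left (by linarith) (by positivity)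
      _ ≤ _ := by rw [mul_one]; gcongr
  have b4 : r / t * (p * (1 - p) * I) ≤ r * (256 / x ^ γ) * I := by
    calc _ = r * (p * (1 - p) / t) * I := by ring
      _ ≤ _ := by gcongr
  calc _ ≤ r * (128 / x ^ γ) * I + r * (256 / x ^ γ) * I := by linarith
    _ = _ := by ring

end Crest.Agent.H0077
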